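import Vale.Agent.P325.H120.K2.Tw

/-!
# Package E2: the displacement
-/

namespace Vale.Agent.P325.H120.K2

open Finset Vale.Agent.P325.K2

open Classical in
/-- The union bound for single entries and pairs of entries. -/
theorem Pr_le_single_pair {α V : Type} [Fintype α] [Fintype V] {p : α → Prop}
    {q : V → α → Prop} {r : V → V → α → Prop}
    (h : ∀ x, p x → (∃ ν, q ν x) ∨ ∃ ν ν', ν ≠ ν' ∧ r ν ν' x) :
    Pr p ≤ ∑ ν, Pr (q ν) + ∑ ν, ∑ ν', if ν = ν' then 0 else Pr (r ν ν') := by
  refine (Pr_mono h).trans ((Pr_or_le _ _).trans (add_le_add (Pr_exists_le _) ?_))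
  refine (Pr_exists_le _).trans (sum_le_sum fun ν _ => ?_)
  refine (Pr_exists_le _).trans (sum_le_sum fun ν' _ => ?_)
  split_ifs with h1
  · refine (Pr_mono (q := fun _ => False) fun x hx => hx.1 h1).trans ?_
    simp [Pr, Ex]
  · exact Pr_mono fun x hx => hx.2

/-- Package E2. -/
theorem dispThm : DispThm := by
  intro n L _ _ K V _ _ _ _ Φ adr a a' h
  have hL : 0 < L := Nat.pos_of_ne_zero (NeZero.ne L)
  unfold cost1 pairs
  refine (Pr_le_single_pair (q := fun ν y => near a y (adr ν) ∧ pivt Φ adr a y ν)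
    (r := fun ν ν' y => near a y (adr ν) ∧ near a y (adr ν')) fun y hy => ?_).trans le_rfl
  · have hfar : ∀ ν, ¬ near a y (adr ν) → tbl a' y adr ν = tbl a y adr ν := fun ν hν =>
      tbit_eq_of_abs ((abs_Ssum_sub_le hL h y (adr ν)).trans (by omega)) hν
    have hne : tbl a' y adr ≠ tbl a y adr := fun h => hy (by unfold FF; rw [h])
    obtain ⟨ν, hν⟩ := Function.ne_iff.1 hne
    have hn : near a y (adr ν) := by
      by_contra h1
      exact hν (hfar ν h1)
    by_cases h2 : ∃ ν', ν ≠ ν' ∧ near a y (adr ν')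
    · obtain ⟨ν', h3, h4⟩ := h2
      exact Or.inr ⟨ν, ν', h3, hn, h4⟩
    · push Not at h2
      refine Or.inl ⟨ν, hn, ?_⟩
      unfold pivt
      have h3 : flipAt (tbl a y adr) ν = tbl a' y adr := by
        funext ν'
        unfold flipAt
        rcases eq_or_ne ν' ν with rfl | h4
        · rw [Function.update_self]
          revert hν
          generalize tbl a' y adr ν' = b; generalize tbl a y adr ν' = b'
          cases b <;> cases b' <;> simp
        · rw [Function.update_of_ne h4, hfar ν' (h2 ν' h4.symm)]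
      rw [h3]
      intro h4
      exact hy (by unfold FF; rw [h4])

end Vale.Agent.P325.H120.K2
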