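import Vale.Agent.P325.H111.K2.Stmts

/-!
# Facts on the triangle wave, on the weighted sums and on the bits of the tables
-/

namespace Vale.Agent.P325.H120.K2

open Finset Vale.Agent.P325.K2

theorem abs_tw_le {L : ℕ} (hL : 0 < L) (v : ℤ) : |tw L v| ≤ L := by
  unfold tw
  have h1 := Int.emod_nonneg (v + L) (b := 4 * (L : ℤ)) (by omega)
  have h2 := Int.emod_lt_of_pos (v + L) (b := 4 * (L : ℤ)) (by omega)
  set m := (v + L) % (4 * (L : ℤ))
  rw [abs_le]
  rcases abs_cases (m - 2 * (L : ℤ)) with h | h <;> constructor <;> omega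

theorem emod_add_one {b : ℤ} (hb : 0 < b) (u : ℤ) :
    (u + 1) % b = u % b + 1 ∨ (u % b = b - 1 ∧ (u + 1) % b = 0) := by
  have h1 := Int.emod_nonneg u (b := b) (by omega)
  have h2 := Int.emod_lt_of_pos u hb
  rcases eq_or_ne (u % b) (b - 1) with h | h
  · right
    refine ⟨h, ?_⟩
    rw [Int.add_emod, h]
    rcases eq_or_ne b 1 with rfl | h3
    · simp
    · rw [Int.emod_eq_of_lt (a := 1) (by omega) (by omega), sub_add_cancel, Int.emod_self]
  · left
    rcases eq_or_ne b 1 with rfl | h3
    · omega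
    · rw [Int.add_emod, Int.emod_eq_of_lt (a := 1) (by omega) (by omega),
        Int.emod_eq_of_lt (by omega) (by omega)]

theorem abs_tw_succ {L : ℕ} (hL : 0 < L) (v : ℤ) : |tw L (v + 1) - tw L v| ≤ 1 := by
  unfold tw
  have h1 := Int.emod_nonneg (v + L) (b := 4 * (L : ℤ)) (by omega)
  have h2 := Int.emod_lt_of_pos (v + L) (b := 4 * (L : ℤ)) (by omega)
  have h3 := emod_add_one (b := 4 * (L : ℤ)) (by omega) (v + L)
  have h4 : v + 1 + (L : ℤ) = v + L + 1 := by ring
  rw [h4]
  set m := (v + L) % (4 * (L : ℤ))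
  set m' := (v + L + 1) % (4 * (L : ℤ))
  rw [abs_le]
  rcases abs_cases (m - 2 * (L : ℤ)) with h | h <;>
    rcases abs_cases (m' - 2 * (L : ℤ)) with h' | h' <;> constructor <;> omega

theorem abs_tw_two {L : ℕ} (hL : 0 < L) (v : ℤ) : |tw L (v + 2) - tw L v| ≤ 2 := by
  have h1 := abs_tw_succ hL v
  have h2 := abs_tw_succ hL (v + 1)
  have h3 : v + 1 + 1 = v + 2 := by ring
  rw [h3] at h2
  rw [abs_le] at *
  omega

theorem abs_tw_sub {L : ℕ} (hL : 0 < L) (v w : ℤ) : |tw L w - tw L v| ≤ |w - v| := by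
  have key : ∀ (k : ℕ) (v : ℤ), |tw L (v + k) - tw L v| ≤ k := by
    intro k
    induction k with
    | zero => intro v; simp
    | succ k ih =>
      intro v
      have h1 := ih v
      have h2 := abs_tw_succ hL (v + k)
      have h3 : v + ((k + 1 : ℕ) : ℤ) = v + k + 1 := by push_cast; ring
      rw [h3]
      push_cast
      rw [abs_le] at *
      omega
  rcases le_total v w with h | h
  · obtain ⟨k, hk⟩ := Int.eq_ofNat_of_zero_le (sub_nonneg.2 h)
    have h1 := key k v
    have h2 : w = v + k := by omega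
    rw [h2]
    have h3 : |v + (k : ℤ) - v| = k := by rw [add_sub_cancel_left, Nat.abs_cast]
    rw [h3]; exact h1
  · obtain ⟨k, hk⟩ := Int.eq_ofNat_of_zero_le (sub_nonneg.2 h)
    have h1 := key k w
    have h2 : v = w + k := by omega
    rw [h2, abs_sub_comm, abs_sub_comm w]
    have h3 : |w + (k : ℤ) - w| = k := by rw [add_sub_cancel_left, Nat.abs_cast]
    rw [h3]; exact h1

theorem tw_neg {L : ℕ} (hL : 0 < L) (v : ℤ) : tw L (-v) = - tw L v := by
  unfold tw
  have h1 := Int.emod_nonneg (v + L) (b := 4 * (L : ℤ)) (by omega)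
  have h2 := Int.emod_lt_of_pos (v + L) (b := 4 * (L : ℤ)) (by omega)
  have h3 := Int.mul_ediv_add_emod (v + L) (4 * (L : ℤ))
  have h4 : (-v + L) % (4 * (L : ℤ)) =
      (2 * L - (v + L) % (4 * (L : ℤ))) % (4 * (L : ℤ)) := by
    have h5 : -v + (L : ℤ) = 2 * L - (v + L) % (4 * (L : ℤ)) +
      4 * (L : ℤ) * (-((v + L) / (4 * (L : ℤ)))) := by
      set d := (v + L) / (4 * (L : ℤ))
      set m := (v + L) % (4 * (L : ℤ))
      have : v = 4 * L * d + m - L := by omega
      rw [this]; ring
    rw [h5, Int.add_mul_emod_self_left]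
  rw [h4]
  set m := (v + L) % (4 * (L : ℤ))
  rcases le_or_gt m (2 * L) with h | h
  · rw [Int.emod_eq_of_lt (by omega) (by omega)]
    rcases abs_cases (m - 2 * (L : ℤ)) with h | h <;>
      rcases abs_cases (2 * (L : ℤ) - m - 2 * L) with h' | h' <;> omega
  · have h6 : (2 * (L : ℤ) - m) % (4 * (L : ℤ)) = 6 * L - m := by
      have h7 : 2 * (L : ℤ) - m = 6 * L - m + 4 * (L : ℤ) * (-1) := by ring
      rw [h7, Int.add_mul_emod_self_left]
      exact Int.emod_eq_of_lt (by omega) (by omega)
    rw [h6]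
    rcases abs_cases (m - 2 * (L : ℤ)) with h | h <;>
      rcases abs_cases (6 * (L : ℤ) - m - 2 * L) with h' | h' <;> omega

theorem sgz_not (b : Bool) : sgz (!b) = - sgz b := by cases b <;> simp [sgz]

theorem abs_sgz (b : Bool) : |sgz b| = 1 := by cases b <;> simp [sgz]

theorem sg_not' (b : Bool) : sg (!b) = - sg b := by cases b <;> simp [sg]

theorem abs_xv_le {L : ℕ} (hL : 0 < L) (y : Fin (L * L) → Bool) : |xv L y| ≤ L := abs_tw_le hL _

theorem xv_not {L : ℕ} (hL : 0 < L) (y : Fin (L * L) → Bool) :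
    xv L (fun i => !y i) = - xv L y := by
  unfold xv
  rw [← tw_neg hL]
  congr 1
  rw [← sum_neg_distrib]
  exact sum_congr rfl fun i _ => sgz_not _

/-- A change of one bit of the string changes its value by at most `2`. -/
theorem abs_xv_sub_le {L : ℕ} (hL : 0 < L) (y y' : Fin (L * L) → Bool) (i : Fin (L * L))
    (h : ∀ j, j ≠ i → y' j = y j) : |xv L y' - xv L y| ≤ 2 := by
  unfold xv
  refine (abs_tw_sub hL _ _).trans ?_
  rw [← sum_sub_distrib]
  rw [sum_eq_single i (fun j _ hj => by rw [h j hj, sub_self]) (fun h => absurd (mem_univ _) h)]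
  generalize y' i = b; generalize y i = b'
  cases b <;> cases b' <;> simp [sgz]

section

variable {n L : ℕ} {K V : Type}

theorem Ssum_not (hL : 0 < L) (a : Fin n → Fin L) (y : Bt n L K → Bool) (κ : Fin n → K) :
    Ssum a (fun i => !y i) κ = - Ssum a y κ := by
  unfold Ssum
  rw [← sum_neg_distrib]
  refine sum_congr rfl fun k _ => ?_
  rw [xv_not hL fun i => y (k, κ k, i), mul_neg]

/-- The sums depend only on the bits of the address. -/
theorem Ssum_congr (a : Fin n → Fin L) {y y' : Bt n L K → Bool} {κ : Fin n → K}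
    (h : ∀ k i, y (k, κ k, i) = y' (k, κ k, i)) : Ssum a y κ = Ssum a y' κ := by
  unfold Ssum
  refine sum_congr rfl fun k _ => ?_
  rw [funext (h k)]

/-- A change of the weights by one in one coordinate changes the sums by at most `L`. -/
theorem abs_Ssum_sub_le (hL : 0 < L) {a a' : Fin n → Fin L} (h : Adj1 a a')
    (y : Bt n L K → Bool) (κ : Fin n → K) : |Ssum a' y κ - Ssum a y κ| ≤ L := by
  obtain ⟨k, hk, hk'⟩ := h
  unfold Ssum
  rw [← sum_sub_distrib, sum_eq_single k (fun j _ hj => by rw [hk j hj, sub_self])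
    (fun h => absurd (mem_univ _) h), ← sub_mul, abs_mul, abs_sub_comm, hk', one_mul]
  exact abs_xv_le hL _

/-- A change of one bit changes the sums by at most `2 (L - 1)`. -/
theorem abs_Ssum_flp_le [DecidableEq K] (hL : 0 < L) (a : Fin n → Fin L)
    (y : Bt n L K → Bool) (i : Bt n L K) (κ : Fin n → K) :
    |Ssum a (flp y i) κ - Ssum a y κ| ≤ 2 * (L - 1) := by
  obtain ⟨k, q, j⟩ := i
  unfold Ssum
  rw [← sum_sub_distrib, sum_eq_single k ?_ (fun h => absurd (mem_univ _) h), ← mul_sub, abs_mul,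
    Nat.abs_cast]
  · have h1 : (((a k : ℕ) : ℤ)) ≤ L - 1 := by have := (a k).2; omega
    have h2 : |xv L (fun i => flp y (k, q, j) (k, κ k, i)) - xv L fun i => y (k, κ k, i)| ≤ 2 := by
      refine abs_xv_sub_le hL _ _ j fun j' hj' => ?_
      unfold flp
      rw [Function.update_of_ne]
      intro h
      simp only [Prod.mk.injEq] at h
      exact hj' h.2.2
    have h3 : (0 : ℤ) ≤ (a k : ℕ) := Nat.cast_nonneg _
    have h4 := abs_nonneg (xv L (fun i => flp y (k, q, j) (k, κ k, i)) - xv L fun i => y (k, κ k, i))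
    nlinarith
  · intro k' _ hk'
    have : (fun i => flp y (k, q, j) (k', κ k', i)) = fun i => y (k', κ k', i) := by
      funext i
      unfold flp
      rw [Function.update_of_ne]
      intro h
      simp only [Prod.mk.injEq] at h
      exact hk' h.1
    rw [this, sub_self]

/-- If one sum is not small and the other is at distance at most `2 L`, then the bits of the tables
are equal. -/
theorem tbit_eq_of_abs [NeZero n] [NeZero L] {a a' : Fin n → Fin L} {y y' : Bt n L K → Bool}
    {κ : Fin n → K} (h : |Ssum a' y' κ - Ssum a y κ| ≤ 2 * L) (h' : ¬ near a y κ) :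
    tbit a' y' κ = tbit a y κ := by
  unfold near at h'
  unfold tbit
  rw [abs_le] at h h'
  rcases lt_or_ge 0 (Ssum a y κ) with h1 | h1
  · rw [if_pos (by omega), if_pos h1]
  · rw [if_neg (by omega), if_pos (by omega), if_neg (by omega), if_pos (by omega)]

theorem tbit_not [NeZero n] [NeZero L] (a : Fin n → Fin L) (y : Bt n L K → Bool) (κ : Fin n → K) :
    tbit a (fun i => !y i) κ = !tbit a y κ := by
  unfold tbit
  rw [Ssum_not (Nat.pos_of_ne_zero (NeZero.ne L))]
  rcases lt_trichotomy 0 (Ssum a y κ) with h1 | h1 | h1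
  · rw [if_neg (by omega), if_pos (by omega), if_pos h1]; rfl
  · rw [if_neg (by omega), if_neg (by omega), if_neg (by omega), if_neg (by omega)]
  · rw [if_pos (by omega), if_neg (by omega), if_pos h1]; rfl

end

/-- Package E3. -/
theorem oddFF : OddFF := by
  intro n L _ _ K V Φ adr a h y
  unfold FF
  rw [← sg_not', ← h]
  congr 2
  funext ν
  exact tbit_not a y (adr ν)

end Vale.Agent.P325.H120.K2
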